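import Mathlib
import Vale.Agent.P262.V2Final

/-! P262: a bound for the Euclidean Steinitz constant which is free of the number of vectors. -/

namespace Vale.Agent.Results.P262.SteinitzSqrtDLog

/-- Every zero-sum family of `N` vectors in the Euclidean unit ball of dimension `d` can be
ordered so that all prefix sums have norm at most `1000 √(d (1 + log d))`, for every `N`. -/
theorem result (d N : ℕ) (hd : 1 ≤ d) (v : Fin N → EuclideanSpace ℝ (Fin d))
    (hv : ∀ i, ‖v i‖ ≤ 1) (h0 : ∑ i, v i = 0) :
    ∃ π : Equiv.Perm (Fin N), ∀ k : ℕ, k ≤ N →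
      ‖∑ i ∈ Finset.univ.filter (fun i : Fin N => (i : ℕ) < k), v (π i)‖
        ≤ 1000 * Real.sqrt (d * (1 + Real.log d)) :=
  _root_.P262.steinitz2 hd v hv h0

end Vale.Agent.Results.P262.SteinitzSqrtDLog
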